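import Mathlib

/-! Row 264, P2: the integral of a derivative along a measure preserving flow vanishes.

`t ↦ ∫ F (φ t x)` is constant (`MeasurePreserving.integral_comp'` / `integral_map`).  The derivative of
`t ↦ F (φ t x)` at `t` is `F' (φ t x)`.  Let `C = φ [-2,2] (tsupport F)` (compact); for `x ∉ C` the function
`t ↦ F (φ t x)` vanishes for `|t| < 2`, so `F' (φ t x) = 0`; on `C` bound `|F'|` on the compact set
`φ [-1,1] C`.  `hasDerivAt_integral_of_dominated_loc_of_deriv_le` with bound `B • indicator C`. -/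

set_option autoImplicit false
open Set Filter Topology MeasureTheory

namespace Crest.Agent.R264

theorem integral_deriv_flow_eq_zero {G : Type*} [TopologicalSpace G] [T2Space G]
    [SecondCountableTopology G] [MeasurableSpace G] [BorelSpace G] (μ : Measure G)
    [IsFiniteMeasureOnCompacts μ] (φ : ℝ → G → G) (hc : Continuous fun p : ℝ × G => φ p.1 p.2)
    (h0 : ∀ x, φ 0 x = x) (hadd : ∀ s t x, φ (s + t) x = φ s (φ t x))
    (hμ : ∀ t, MeasurePreserving (φ t) μ μ) {F F' : G → ℝ} (hF : Continuous F)
    (hFc : HasCompactSupport F) (hF' : Continuous F')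
    (hd : ∀ x, HasDerivAt (fun t => F (φ t x)) (F' x) 0) : ∫ x, F' x ∂μ = 0 := by
  have hct : ∀ t, Continuous (φ t) := fun t => hc.comp (continuous_const.prodMk continuous_id)
  have hcx : ∀ x, Continuous fun t => φ t x := fun x =>
    hc.comp (continuous_id.prodMk continuous_const)
  have hder : ∀ x t, HasDerivAt (fun t => F (φ t x)) (F' (φ t x)) t := by
    intro x t
    have h1 : HasDerivAt (fun s => F (φ s (φ t x))) (F' (φ t x)) (t - t) := by
      rw [sub_self]
      exact hd _
    have h2 := h1.comp_sub_const t t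
    simp only [← hadd, sub_add_cancel] at h2
    exact h2
  have hz : ∀ y, y ∉ tsupport F → F' y = 0 := by
    intro y hy
    have ht : Tendsto (fun t => φ t y) (𝓝 0) (𝓝 y) := by
      have := (hcx y).tendsto 0
      rwa [h0] at this
    have h1 : (fun t => F (φ t y)) =ᶠ[𝓝 0] fun _ => 0 := by
      filter_upwards [ht.eventually ((isClosed_tsupport F).isOpen_compl.mem_nhds hy)] with t h
      exact image_eq_zero_of_notMem_tsupport h
    exact (hd y).unique ((hasDerivAt_const (0 : ℝ) (0 : ℝ)).congr_of_eventuallyEq h1)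
  obtain ⟨B, hB⟩ := hFc.isCompact.exists_bound_of_continuousOn hF'.continuousOn
  have hC : IsCompact ((fun p : ℝ × G => φ p.1 p.2) '' (Icc (-1) 1 ×ˢ tsupport F)) :=
    (isCompact_Icc.prod hFc.isCompact).image hc
  obtain ⟨C, hCd⟩ : ∃ C, C = (fun p : ℝ × G => φ p.1 p.2) '' (Icc (-1) 1 ×ˢ tsupport F) :=
    ⟨_, rfl⟩
  rw [← hCd] at hC
  have hb : ∀ x, ∀ t ∈ Icc (-1 : ℝ) 1, ‖F' (φ t x)‖ ≤ C.indicator (fun _ => |B|) x := by
    intro x t ht
    by_cases h : φ t x ∈ tsupport F
    · have hx : x ∈ C := by
        rw [hCd]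
        refine ⟨(-t, φ t x), ⟨⟨by linarith [ht.2], by linarith [ht.1]⟩, h⟩, ?_⟩
        simp only [← hadd, neg_add_cancel, h0]
      rw [indicator_of_mem hx]
      exact (hB _ h).trans (le_abs_self B)
    · rw [hz _ h, norm_zero]
      exact indicator_nonneg (fun _ _ => abs_nonneg B) x
  have hint : Integrable (C.indicator fun _ => |B|) μ :=
    (integrable_indicator_iff hC.measurableSet).2 (integrableOn_const hC.measure_lt_top.ne)
  have key := hasDerivAt_integral_of_dominated_loc_of_deriv_le (μ := μ)
    (F := fun t x => F (φ t x)) (F' := fun t x => F' (φ t x)) (x₀ := (0 : ℝ))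
    (bound := C.indicator fun _ => |B|) (s := Icc (-1) 1) (Icc_mem_nhds (by norm_num) (by norm_num))
    (Eventually.of_forall fun t => (hF.comp (hct t)).aestronglyMeasurable)
    (by simpa only [h0] using hF.integrable_of_hasCompactSupport hFc)
    (hF'.comp (hct 0)).aestronglyMeasurable (Eventually.of_forall hb) hint
    (Eventually.of_forall fun x t _ => hder x t)
  have hconst : (fun t => ∫ x, F (φ t x) ∂μ) = fun _ => ∫ x, F x ∂μ := by
    funext t
    rw [← integral_map (hμ t).measurable.aemeasurable hF.aestronglyMeasurable, (hμ t).map_eq]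
  have h2 := key.2
  simp only [hconst, h0] at h2
  exact h2.unique (hasDerivAt_const _ _)

end Crest.Agent.R264
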