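import Mathlib

/-! Row 264, P2: a group with a cocompact lattice is unimodular.

`Γ` is countable (`G` is σ-compact).  `S h = ∑' γ : Γ, 1_C (γ h) ∈ [1, ∞)` (ENNReal), `S (γ h) = S h`,
`ρ = 1_C / S` is measurable and `∑' γ, ρ (γ h) = 1`.  For `g ∈ G`:
`∫⁻ ρ (h g) = ∫⁻ ρ (h g) ∑' ρ (γ h) = ∑' ∫⁻ ρ (γ⁻¹ h g) ρ h = ∫⁻ ρ` (`lintegral_tsum`,
`lintegral_mul_left_eq_self`), `0 < ∫⁻ ρ ≤ μ C < ∞` (if it were `0` then `μ C = 0` and `μ univ = 0`).
`map (· * g) μ` is a Haar measure, equal to `c • μ` (`isMulLeftInvariant_eq_smul`,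
or `map_right_mul_eq_modularCharacterFun_smul`), so `c = 1`. -/

set_option autoImplicit false
open Set Filter Topology MeasureTheory

namespace Crest.Agent.R264

theorem isMulRightInvariant_of_lattice {G : Type*} [Group G] [TopologicalSpace G]
    [IsTopologicalGroup G] [LocallyCompactSpace G] [SecondCountableTopology G] [T2Space G]
    [MeasurableSpace G] [BorelSpace G] (μ : Measure G) [μ.IsHaarMeasure] (Γ : Subgroup G)
    (hfin : ∀ C' : Set G, IsCompact C' → ((Γ : Set G) ∩ C').Finite) {C : Set G} (hC : IsCompact C)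
    (hcov : ∀ h, ∃ γ ∈ Γ, γ * h ∈ C) : μ.IsMulRightInvariant := by
  have hΓ : (Γ : Set G).Countable := by
    refine (countable_iUnion fun n => (hfin _ (isCompact_compactCovering G n)).countable).mono ?_
    rw [← inter_iUnion, iUnion_compactCovering, inter_univ]
  have : Countable Γ := hΓ.to_subtype
  set ind : G → ENNReal := C.indicator 1 with hind
  have hindm : Measurable ind := measurable_one.indicator hC.isClosed.measurableSet
  set S : G → ENNReal := fun h => ∑' γ : Γ, ind (γ * h) with hS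
  have hSm : Measurable S := Measurable.tsum fun γ => hindm.comp (measurable_const_mul _)
  have hS1 : ∀ h, 1 ≤ S h := fun h => by
    obtain ⟨γ, hγ, hγC⟩ := hcov h
    refine le_trans (le_of_eq ?_) (ENNReal.le_tsum (⟨γ, hγ⟩ : Γ))
    exact (indicator_of_mem hγC (1 : G → ENNReal)).symm
  have hSt : ∀ h, S h ≠ ⊤ := fun h => by
    have h1 : {γ : Γ | (γ : G) * h ∈ C}.Finite := by
      refine ((hfin _ (hC.image (continuous_mul_const h⁻¹))).preimage
        (Subtype.val_injective (p := (· ∈ Γ))).injOn).subset fun γ hγ => ⟨γ.2, _, hγ, by simp⟩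
    have h2 : S h = ∑ γ ∈ h1.toFinset, ind (γ * h) :=
      tsum_eq_sum fun γ hγ => indicator_of_notMem (by simpa using hγ) _
    rw [h2]
    refine (ENNReal.sum_lt_top.2 fun γ _ => ?_).ne
    exact (indicator_le_self _ _ _).trans_lt ENNReal.one_lt_top
  have hSi : ∀ (γ : Γ) h, S (γ * h) = S h := fun γ h => by
    refine Eq.trans ?_ ((Equiv.mulRight γ).tsum_eq fun δ : Γ => ind (δ * h))
    simp [hS, mul_assoc]
  set ρ : G → ENNReal := fun h => ind h * (S h)⁻¹ with hρ
  have hρm : Measurable ρ := hindm.mul hSm.inv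
  have hρ1 : ∀ h, ∑' γ : Γ, ρ (γ * h) = 1 := fun h => by
    simp only [hρ, hSi]
    rw [ENNReal.tsum_mul_right]
    exact ENNReal.mul_inv_cancel (zero_lt_one.trans_le (hS1 h)).ne' (hSt h)
  have hρ2 : ∀ h, ∑' γ : Γ, ρ ((γ : G)⁻¹ * h) = 1 := fun h =>
    ((Equiv.inv Γ).tsum_eq fun δ : Γ => ρ (δ * h)).trans (hρ1 h)
  have key : ∀ g, ∫⁻ h, ρ (h * g) ∂μ = ∫⁻ h, ρ h ∂μ := fun g => by
    calc ∫⁻ h, ρ (h * g) ∂μ = ∫⁻ h, ∑' γ : Γ, ρ (h * g) * ρ (γ * h) ∂μ := by
          simp only [ENNReal.tsum_mul_left, hρ1, mul_one]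
      _ = ∑' γ : Γ, ∫⁻ h, ρ (h * g) * ρ (γ * h) ∂μ := lintegral_tsum fun γ =>
          ((hρm.comp (measurable_mul_const g)).mul
            (hρm.comp (measurable_const_mul _))).aemeasurable
      _ = ∑' γ : Γ, ∫⁻ h, ρ ((γ : G)⁻¹ * (h * g)) * ρ h ∂μ := tsum_congr fun γ => by
          rw [← lintegral_mul_left_eq_self (fun h => ρ ((γ : G)⁻¹ * (h * g)) * ρ h) (γ : G)]
          simp only [mul_assoc, inv_mul_cancel_left]
      _ = ∫⁻ h, ∑' γ : Γ, ρ ((γ : G)⁻¹ * (h * g)) * ρ h ∂μ := (lintegral_tsum fun γ =>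
          (((hρm.comp (measurable_const_mul _)).comp (measurable_mul_const g)).mul
            hρm).aemeasurable).symm
      _ = ∫⁻ h, ρ h ∂μ := by simp only [ENNReal.tsum_mul_right, hρ2, one_mul]
  have hfinite : ∫⁻ h, ρ h ∂μ ≠ ⊤ := by
    refine ne_top_of_le_ne_top (hC.measure_lt_top (μ := μ)).ne ?_
    rw [← lintegral_indicator_one hC.isClosed.measurableSet]
    exact lintegral_mono fun h => mul_le_of_le_one_right' (ENNReal.inv_le_one.2 (hS1 h))
  have hpos : ∫⁻ h, ρ h ∂μ ≠ 0 := fun h0 => by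
    have h1 : ∫⁻ h, ∑' γ : Γ, ρ (γ * h) ∂μ = 0 := by
      rw [lintegral_tsum (f := fun (γ : Γ) h => ρ (γ * h))
        fun γ => (hρm.comp (measurable_const_mul _)).aemeasurable]
      simp only [lintegral_mul_left_eq_self, h0, tsum_zero]
    simp only [hρ1, lintegral_const, one_mul] at h1
    exact (isOpen_univ.measure_pos μ univ_nonempty).ne' h1
  refine ⟨fun g => ?_⟩
  have h1 := Measure.map_right_mul_eq_modularCharacterFun_smul μ g
  have h2 := key g
  rw [← lintegral_map hρm (measurable_mul_const g), h1, lintegral_smul_measure, ENNReal.smul_def,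
    smul_eq_mul] at h2
  have h3 : Measure.modularCharacterFun g = 1 := by
    have := (ENNReal.mul_left_inj hpos hfinite).1 (h2.trans (one_mul _).symm)
    exact_mod_cast this
  rw [h1, h3, one_smul]

end Crest.Agent.R264
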